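import Vale.Agent.P269.G1I.T.H440_TrrOne
import Vale.Agent.P269.G1I.ZSpec

/-!
# [ZE] the linear part and the mixed products as one-point functions
-/

namespace Vale.Agent.P269.G1.H960

open Finset.HasAntidiagonal (antidiagonal)
open Vale.Agent.P269.CI Vale.Agent.P269.G1

variable {X : CompleteIntersection} {F : ℕ → ℕ → List (Ins X) → ℂ}

theorem cst_eq (c : ℂ) : cst X c =
    ((MvPowerSeries.C (σ := Fin (X.dim + 1))).comp (PowerSeries.C (R := ℂ))) c := rfl

theorem cst_mul (a b : ℂ) : cst X (a * b) = cst X a * cst X b := by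
  simp only [cst_eq, map_mul]

theorem cst_sum {ι : Type*} (s : Finset ι) (f : ι → ℂ) :
    cst X (∑ i ∈ s, f i) = ∑ i ∈ s, cst X (f i) := by
  simp only [cst_eq, map_sum]

theorem cst_one : cst X 1 = 1 := by simp only [cst_eq, map_one]

theorem cst_zero : cst X 0 = 0 := by simp only [cst_eq, map_zero]

theorem cst_neg_one : cst X (-1) = -1 := by simp only [cst_eq, map_neg, map_one]

theorem cst_pow (c : ℂ) (n : ℕ) : cst X (c ^ n) = cst X c ^ n := by
  simp only [cst_eq, map_pow]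

theorem smul_eq_cst (c : ℂ) (f : RR X) : c • f = cst X c * f := by
  unfold cst
  ext α d
  rw [MvPowerSeries.coeff_C_mul, PowerSeries.coeff_C_mul]
  rfl

variable (hF : IsGW X F) (h1 : IsGenusOne F)

/-- `Gam` as a linear map -/
noncomputable def GamL (n : ℤ) : AA hF h1 →ₗ[RR X] RR X :=
  (GG hF h1).comp (SZ hF h1 n).1 +
    cst X (1 / 24) • ((strO hF h1).comp ((CC hF h1).toLinearMap.comp (SZ hF h1 (n - 1)).1))

theorem Gam_eq (n : ℤ) (x : AA hF h1) : Gam hF h1 n x = GamL hF h1 n x := by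
  unfold Gam
  rw [smul_eq_cst]
  rfl

theorem GamL_neg (n : ℤ) (hn : n < 0) : GamL hF h1 n = 0 := by
  unfold GamL SZ
  rw [if_pos hn, if_pos (by omega)]
  refine LinearMap.ext fun x => ?_
  change GG hF h1 0 + cst X (1 / 24) * strO hF h1 (CC hF h1 0) = 0
  rw [map_zero, map_zero, map_zero, mul_zero, add_zero]

theorem mkEnd_bas (M : Fin (X.dim + 1) → Fin (X.dim + 1) → RR X) (a : Fin (X.dim + 1)) :
    mkEnd hF h1 M (QA.bas _ a) = ∑ k, M a k • QA.bas (consts hF h1) k := by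
  funext k
  have h : (∑ j, M a j • QA.bas (consts hF h1) j : AA hF h1) k =
      ∑ j, M a j * QA.bas (consts hF h1) j k := by
    have := Finset.sum_apply (M := fun _ : Fin (X.dim + 1) => RR X) k Finset.univ
      (fun j => (M a j • QA.bas (consts hF h1) j : AA hF h1))
    exact this
  rw [h]
  change ∑ i, QA.bas (consts hF h1) a i * M i k = _
  simp [QA.bas_apply]

theorem fmu_bas (g : ℂ → ℂ) (a : Fin (X.dim + 1)) :
    (fmu hF h1 g).1 (QA.bas _ a) = cst X (g (mu X (Sum.inl a))) • QA.bas (consts hF h1) a := by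
  have h := mkEnd_bas hF h1 (fun i k => if i = k then cst X (g (mu X (Sum.inl i))) else 0) a
  refine h.trans ?_
  rw [Finset.sum_eq_single a]
  · rw [if_pos rfl]
  · intro b _ hb
    rw [if_neg (Ne.symm hb), zero_smul]
  · simp

theorem c1_inr (v : X.Prim) (k : Fin (X.dim + 1)) : c1 X (Sum.inr v) (Sum.inl k) = 0 := by
  unfold c1
  change (index X : ℂ) * 0 = 0
  rw [mul_zero]

theorem Rcl_pow_bas (i : ℕ) (a : Fin (X.dim + 1)) :
    ((Rcl hF h1) ^ i).1 (QA.bas _ a) =
      ∑ b, cst X (c1pow X i (Sum.inl a) (Sum.inl b)) • QA.bas (consts hF h1) b := by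
  induction i with
  | zero =>
    rw [pow_zero]
    change QA.bas (consts hF h1) a = _
    rw [Finset.sum_eq_single a]
    · unfold c1pow
      rw [pow_zero, Matrix.one_apply_eq, cst_one, one_smul]
    · intro b _ hb
      unfold c1pow
      rw [pow_zero, Matrix.one_apply_ne (fun h => hb (Sum.inl_injective h).symm), cst_zero,
        zero_smul]
    · simp
  | succ i ih =>
    rw [pow_succ']
    change (Rcl hF h1).1 (((Rcl hF h1) ^ i).1 (QA.bas _ a)) = _
    rw [ih, map_sum]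
    have hR : ∀ b : Fin (X.dim + 1), (Rcl hF h1).1 (QA.bas _ b) =
        ∑ k, cst X (c1 X (Sum.inl b) (Sum.inl k)) • QA.bas (consts hF h1) k :=
      fun b => mkEnd_bas hF h1 _ b
    simp only [map_smul, hR, Finset.smul_sum, smul_smul]
    rw [Finset.sum_comm]
    refine Finset.sum_congr rfl fun k _ => ?_
    rw [← Finset.sum_smul]
    congr 1
    unfold c1pow
    rw [pow_succ, Matrix.mul_apply, Fintype.sum_sum_type]
    have h0 : ∑ v : X.Prim, (Matrix.of (c1 X) ^ i) (Sum.inl a) (Sum.inr v) *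
        Matrix.of (c1 X) (Sum.inr v) (Sum.inl k) = 0 := by
      refine Finset.sum_eq_zero fun v _ => ?_
      rw [Matrix.of_apply, c1_inr, mul_zero]
    rw [h0, add_zero, cst_sum]
    exact Finset.sum_congr rfl fun b _ => (cst_mul _ _).symm

/-- the value of `GamL` on `R^i g(μ) e_a` -/
theorem GamL_R (n : ℤ) (i : ℕ) (g : ℂ → ℂ) (a : Fin (X.dim + 1)) :
    GamL hF h1 n ((Rcl hF h1 ^ i * fmu hF h1 g).1 (QA.bas _ a)) =
      ∑ b : Fin (X.dim + 1), if 0 ≤ n then
        (g (mu X (Sum.inl a)) * c1pow X i (Sum.inl a) (Sum.inl b)) •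
          ser (cor F 1 [(Sum.inl b, n.toNat)]) else 0 := by
  by_cases hn : n < 0
  · rw [GamL_neg hF h1 n hn, Finset.sum_eq_zero]
    · rfl
    · intro b _
      rw [if_neg (by omega)]
  · have h : (Rcl hF h1 ^ i * fmu hF h1 g).1 (QA.bas _ a) =
        cst X (g (mu X (Sum.inl a))) •
          ∑ b, cst X (c1pow X i (Sum.inl a) (Sum.inl b)) • QA.bas (consts hF h1) b := by
      change ((Rcl hF h1) ^ i).1 ((fmu hF h1 g).1 (QA.bas _ a)) = _
      rw [fmu_bas, map_smul, Rcl_pow_bas]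
    rw [h, map_smul, map_sum, smul_eq_mul, Finset.mul_sum]
    refine Finset.sum_congr rfl fun b _ => ?_
    have h2 : GamL hF h1 n (QA.bas _ b) = ser (cor F 1 [(Sum.inl b, n.toNat)]) := by
      rw [cor_one hF h1 b n.toNat, Gam_eq, Int.toNat_of_nonneg (by omega)]
    rw [if_pos (by omega), map_smul, h2, smul_eq_mul, smul_eq_cst, cst_mul, mul_assoc]

/-- **[ZE1]** -/
theorem linS_eq (K m : ℕ) (a : Fin (X.dim + 1)) : linS F K m a =
    ∑ i ∈ Finset.range (K + 1), Gam hF h1 ((m : ℤ) + K - 1 - i)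
      ((Rcl hF h1 ^ i * ee hF h1 m K i).1 (QA.bas _ a)) := by
  unfold linS
  refine Finset.sum_congr rfl fun i _ => ?_
  unfold ee
  rw [Gam_eq, GamL_R]
  refine Finset.sum_congr rfl fun b _ => ?_
  by_cases hi : i + 1 ≤ m + K
  · rw [if_pos hi, if_pos (by omega)]
    have e1 : ((m : ℤ) + K - 1 - i).toNat = m + K - 1 - i := by omega
    have e2 : (m : ℂ) + 1 / 2 + mu X (Sum.inl a) = mu X (Sum.inl a) + ((m : ℤ) : ℂ) + 1 / 2 := by
      push_cast
      ring
    rw [e1, e2]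
  · rw [if_neg hi, if_neg (by omega)]

theorem pairingInv_symm (i j : Fin (X.dim + 1)) :
    pairingInv X (Sum.inl i) (Sum.inl j) = pairingInv X (Sum.inl j) (Sum.inl i) := by
  change (if (i : ℕ) + j = X.dim then (deg X)⁻¹ else 0) =
    if (j : ℕ) + i = X.dim then (deg X)⁻¹ else 0
  rw [add_comm]

theorem sum_bas (x : AA hF h1) : x = ∑ k, x k • QA.bas (consts hF h1) k := by
  funext k
  have h : (∑ j, x j • QA.bas (consts hF h1) j : AA hF h1) k =
      ∑ j, x j * QA.bas (consts hF h1) j k := by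
    have := Finset.sum_apply (M := fun _ : Fin (X.dim + 1) => RR X) k Finset.univ
      (fun j => (x j • QA.bas (consts hF h1) j : AA hF h1))
    exact this
  rw [h, Finset.sum_eq_single k]
  · rw [QA.bas_apply, if_pos rfl, mul_one]
  · intro j _ hj
    rw [QA.bas_apply, if_neg (Ne.symm hj), mul_zero]
  · simp

theorem ST_one (m : ℕ) (k : Fin (X.dim + 1)) : ((ST hF h1 (m + 2)).1 1 : AA hF h1) k =
    ∑ b : Fin (X.dim + 1), cst X (pairingInv X (Sum.inl k) (Sum.inl b)) *
      ser (cor F 0 [(Sum.inl b, m)]) := by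
  have h : ((ST hF h1 (m + 2)).1 1 : AA hF h1) k = ∑ i : Fin (X.dim + 1),
      (1 : AA hF h1) i * ∑ b : Fin (X.dim + 1),
        pairingInv X (Sum.inl b) (Sum.inl k) • W F (Sum.inl b, m + 1) (Sum.inl i, 0) := rfl
  rw [h, Finset.sum_eq_single 0]
  · rw [QA.one_def, if_pos rfl, one_mul]
    refine Finset.sum_congr rfl fun b _ => ?_
    rw [← cor_string hF, smul_eq_cst, pairingInv_symm]
  · intro i _ hi
    rw [QA.one_def, if_neg hi, zero_mul]
  · simp

/-- **[ZE2]** -/
theorem mixS_eq (K : ℕ) : mixS F K =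
    ∑ m ∈ Finset.range (K - 1), (-1) ^ (m + 1) * ∑ i ∈ Finset.range (K + 1),
      Gam hF h1 (-(m : ℤ) - 1 + K - 1 - i)
        ((Rcl hF h1 ^ i * ee hF h1 (-(m : ℤ) - 1) K i * ST hF h1 (m + 2)).1 1) := by
  unfold mixS
  refine Finset.sum_congr rfl fun m hm => ?_
  rw [Finset.mem_range] at hm
  have hsub : Finset.range (K - 1 - m) ⊆ Finset.range (K + 1) :=
    Finset.range_subset_range.2 (by omega)
  rw [Finset.mul_sum]
  have hterm : ∀ i : ℕ, Gam hF h1 (-(m : ℤ) - 1 + K - 1 - i)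
        ((Rcl hF h1 ^ i * ee hF h1 (-(m : ℤ) - 1) K i * ST hF h1 (m + 2)).1 1) =
      ∑ a : Fin (X.dim + 1), ((ST hF h1 (m + 2)).1 1 : AA hF h1) a *
        ∑ c : Fin (X.dim + 1), if 0 ≤ -(m : ℤ) - 1 + K - 1 - i then
          (esym K i (mu X (Sum.inl a) + ((-(m : ℤ) - 1 : ℤ) : ℂ) + 1 / 2) *
            c1pow X i (Sum.inl a) (Sum.inl c)) •
              ser (cor F 1 [(Sum.inl c, (-(m : ℤ) - 1 + K - 1 - i).toNat)]) else 0 := by
    intro i
    have e : (Rcl hF h1 ^ i * ee hF h1 (-(m : ℤ) - 1) K i * ST hF h1 (m + 2)).1 1 =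
        (Rcl hF h1 ^ i * ee hF h1 (-(m : ℤ) - 1) K i).1 ((ST hF h1 (m + 2)).1 1) := rfl
    rw [Gam_eq, e]
    conv_lhs => rw [sum_bas hF h1 ((ST hF h1 (m + 2)).1 1)]
    rw [map_sum, map_sum]
    refine Finset.sum_congr rfl fun a _ => ?_
    rw [map_smul, map_smul, smul_eq_mul]
    unfold ee
    rw [GamL_R]
  refine Eq.trans ?_ (Finset.sum_subset hsub ?_)
  · refine Finset.sum_congr rfl fun i hi => ?_
    rw [Finset.mem_range] at hi
    rw [hterm, Finset.mul_sum]
    refine Finset.sum_congr rfl fun a _ => ?_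
    rw [ST_one, Finset.sum_mul, Finset.mul_sum]
    refine Finset.sum_congr rfl fun b _ => ?_
    rw [Finset.mul_sum, Finset.mul_sum]
    refine Finset.sum_congr rfl fun c _ => ?_
    rw [if_pos (by omega)]
    have e1 : (-(m : ℤ) - 1 + K - 1 - i).toNat = K - 2 - m - i := by omega
    have e2 : mu X (Sum.inl a) - m - 1 / 2 =
        mu X (Sum.inl a) + ((-(m : ℤ) - 1 : ℤ) : ℂ) + 1 / 2 := by
      push_cast
      ring
    have e3 : ((-1 : RR X)) ^ (m + 1) = cst X ((-1) ^ (m + 1)) := by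
      rw [cst_pow, cst_neg_one]
    unfold qco
    rw [e1, e2, e3, smul_eq_cst, smul_eq_cst, cst_mul, cst_mul, cst_mul, cst_mul]
    ring
  · intro i _ hi
    rw [Finset.mem_range] at hi
    rw [hterm]
    have : ∑ a : Fin (X.dim + 1), ((ST hF h1 (m + 2)).1 1 : AA hF h1) a *
        ∑ c : Fin (X.dim + 1), (if 0 ≤ -(m : ℤ) - 1 + K - 1 - i then
          (esym K i (mu X (Sum.inl a) + ((-(m : ℤ) - 1 : ℤ) : ℂ) + 1 / 2) *
            c1pow X i (Sum.inl a) (Sum.inl c)) •
              ser (cor F 1 [(Sum.inl c, (-(m : ℤ) - 1 + K - 1 - i).toNat)]) else 0) = 0 := by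
      refine Finset.sum_eq_zero fun a _ => ?_
      rw [Finset.sum_eq_zero, mul_zero]
      intro c _
      rw [if_neg (by omega)]
    rw [this, mul_zero]

end Vale.Agent.P269.G1.H960
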